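import Mathlib.Analysis.SpecialFunctions.Log.NegMulLog
import Mathlib.Geometry.Manifold.Diffeomorph
import Mathlib.Geometry.Manifold.Instances.Real
import Mathlib.MeasureTheory.Measure.Haar.InnerProductSpace
import Mathlib.MeasureTheory.Constructions.UnitInterval
import Mathlib.Dynamics.Ergodic.Ergodic

open MeasureTheory Set
open scoped ContDiff Manifold

namespace Vale.Agent.N109W

variable {X Y : Type} [MeasurableSpace X] [MeasurableSpace Y]

/-- Kolmogorov–Sinai entropy: the supremum over finite measurable partitions (fibres of `f`) of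
`limsup (1/n) H(partition into names of length n)`. -/
noncomputable def entropy (μ : Measure X) (T : X → X) : ENNReal :=
  ⨆ (k : ℕ) (f : X → Fin k) (_ : Measurable f), Filter.limsup (fun n : ℕ => ENNReal.ofReal
    ((∑ a : Fin n → Fin k, Real.negMulLog (μ.real {x | ∀ i : Fin n, f (T^[i] x) = a i})) / n))
    Filter.atTop

/-- `F` is a bijection, with inverse `G`, between invariant conull sets; both are measurable up to
null sets, `F` carries `μ` to `ν` and `F ∘ T = S ∘ F`. -/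
def Iso (μ : Measure X) (T : X → X) (ν : Measure Y) (S : Y → Y) : Prop :=
  ∃ (X₀ : Set X) (Y₀ : Set Y) (F : X → Y) (G : Y → X),
    (∀ᵐ x ∂μ, x ∈ X₀) ∧ (∀ᵐ y ∂ν, y ∈ Y₀) ∧ MapsTo T X₀ X₀ ∧ MapsTo S Y₀ Y₀ ∧
    MapsTo F X₀ Y₀ ∧ MapsTo G Y₀ X₀ ∧ InvOn G F X₀ Y₀ ∧ AEMeasurable F μ ∧ AEMeasurable G ν ∧
    μ.map F = ν ∧ ∀ x ∈ X₀, F (T x) = S (F x)

/-- A smooth positive-volume model on a compact manifold with model `J`. -/
def Model {d : ℕ} {H : Type} [TopologicalSpace H]
    (J : ModelWithCorners ℝ (EuclideanSpace ℝ (Fin d)) H) (μ : Measure X) (T : X → X) : Prop :=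
  ∃ (M : Type) (_ : TopologicalSpace M) (_ : T2Space M) (_ : CompactSpace M)
    (_ : ChartedSpace H M) (_ : IsManifold J ∞ M) (_ : MeasurableSpace M) (_ : BorelSpace M)
    (ν : Measure M) (S : M ≃ₘ^∞⟮J, J⟯ M), IsProbabilityMeasure ν ∧
    (∀ p : M, ∃ e ∈ IsManifold.maximalAtlas J ∞ M, p ∈ e.source ∧
      ∃ f : EuclideanSpace ℝ (Fin d) → ℝ, ContDiffOn ℝ ∞ f (e.extend J).target ∧
        (∀ y ∈ (e.extend J).target, 0 < f y) ∧ ∀ B ⊆ e.source, MeasurableSet B →
          ν B = ∫⁻ y in e.extend J '' B, ENNReal.ofReal (f y)) ∧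
    MeasurePreserving S ν ν ∧ Iso μ T ν S

/-- A model in some dimension, without or with boundary. -/
def HasModel (μ : Measure X) (T : X → X) : Prop :=
  (∃ d : ℕ, Model (𝓡 d) μ T) ∨ ∃ d : ℕ, Model (𝓡∂ (d + 1)) μ T

/-- `π` is a factor map from `(X, μ, T)` to `(Y, ν, S)`. -/
def IsFactor (π : X → Y) (μ : Measure X) (T : X → X) (ν : Measure Y) (S : Y → Y) : Prop :=
  MeasurePreserving π μ ν ∧ ∀ᵐ x ∂μ, π (T x) = S (π x)

/-- Weak mixing: the cartesian square is ergodic. -/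
def WeakMixing (μ : Measure X) (T : X → X) : Prop := Ergodic (Prod.map T T) (μ.prod μ)

end Vale.Agent.N109W
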