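import Vale.Agent.N109W.Ind
import Vale.Agent.P109.H787.Erg
import Vale.Agent.P109.H787.Bin
import Vale.Agent.P109.H787.SysLemmas

/-! The deleted set of a system over a binary tower. -/

noncomputable section

open MeasureTheory Set Filter Topology
open scoped ENNReal symmDiff

namespace Vale.Agent.N109W

open Vale.Agent.P109

/-- The deleted positions: `n + 1` is divisible by an odd power of two exactly. -/
def del (n : ℕ) : Prop := ∃ j, Odd j ∧ n % 2 ^ (j + 1) + 1 = 2 ^ j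

theorem pred_mod {j k : ℕ} (h : j ≤ k) : (2 ^ k - 1) % 2 ^ j + 1 = 2 ^ j := by
  obtain ⟨c, hc⟩ := pow_dvd_pow 2 h
  have h1 : 0 < 2 ^ j := by positivity
  have h2 : 0 < 2 ^ k := by positivity
  obtain ⟨c, rfl⟩ : ∃ c', c = c' + 1 := ⟨c - 1, by
    rcases c with _ | c
    · omega
    · rfl⟩
  rw [show 2 ^ k - 1 = 2 ^ j - 1 + 2 ^ j * c by rw [hc, mul_add]; omega,
    Nat.add_mul_mod_self_left, Nat.mod_eq_of_lt (by omega)]
  omega

theorem del_pred (j : ℕ) : del (2 ^ j - 1) ↔ Odd j := by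
  have h1 : 0 < 2 ^ j := by positivity
  refine ⟨fun ⟨k, hk, h⟩ => ?_, fun h => ⟨j, h, ?_⟩⟩
  · rcases le_or_gt (k + 1) j with h2 | h2
    · rw [pred_mod h2, pow_succ] at h
      have : 0 < 2 ^ k := by positivity
      omega
    · have h3 := Nat.pow_lt_pow_right (show 1 < 2 by norm_num) h2
      rw [Nat.mod_eq_of_lt (by omega), Nat.sub_add_cancel h1] at h
      rwa [Nat.pow_right_injective le_rfl h]
  · rw [Nat.mod_eq_of_lt (by rw [pow_succ]; omega)]
    omega

variable {𝒯 : Tower} (S : 𝒯.toG.Sys)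

theorem ph_lt (j : ℕ) (x : S.X) : S.ph j x < 2 ^ j := 𝒯.toG_H j ▸ S.ph_lt j x

theorem ph_iter (j : ℕ) (x : S.X) (i : ℕ) : S.ph j (S.T^[i] x) = (S.ph j x + i) % 2 ^ j :=
  𝒯.toG_H j ▸ S.ph_iterate_mod j x i

theorem ph_mod {j k : ℕ} (h : j ≤ k) (x : S.X) : S.ph k x % 2 ^ j = S.ph j x := by
  induction k, h using Nat.le_induction with
  | base => exact Nat.mod_eq_of_lt (ph_lt S j x)
  | succ k hk ih =>
    rw [← ih, ← S.ph_mod k x, 𝒯.toG_H, Nat.mod_mod_of_dvd _ (pow_dvd_pow 2 hk)]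

theorem ph_one (x : S.X) : S.ph 1 (S.T x) = (S.ph 1 x + 1) % 2 := ph_iter S 1 x 1

/-- The deleted set. -/
def Del : Set S.X := {x | ∃ j, Odd j ∧ S.ph (j + 1) x + 1 = 2 ^ j}

theorem Del_meas : MeasurableSet (Del S) := by
  simp only [Del, ofPred_exists, ofPred_and]
  exact MeasurableSet.iUnion fun j => (MeasurableSet.const _).inter
    (S.meas_ph (j + 1) (MeasurableSet.of_discrete (s := {n | n + 1 = 2 ^ j})))

theorem mem_Del {J : ℕ} {x : S.X} (h : S.ph J x + 1 < 2 ^ J) : x ∈ Del S ↔ del (S.ph J x) := by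
  refine exists_congr fun j => and_congr_right fun _ => ?_
  rcases le_or_gt (j + 1) J with h1 | h1
  · rw [ph_mod S h1]
  · have h2 := Nat.pow_le_pow_right (show 0 < 2 by norm_num) (show J ≤ j by omega)
    have h3 := Nat.mod_le (S.ph J x) (2 ^ (j + 1))
    refine iff_of_false (fun h4 => ?_) (by omega)
    have h5 := pred_mod (show J ≤ j by omega)
    rw [← h4, Nat.add_sub_cancel, ph_mod S h1.le] at h5
    omega

theorem Del_odd {x : S.X} (h : x ∈ Del S) : S.ph 1 x = 1 := by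
  obtain ⟨j, hj, h⟩ := h
  have h1 := pred_mod hj.pos
  rw [← h, Nat.add_sub_cancel, ph_mod S (by omega)] at h1
  simpa using h1

theorem Del_step (x : S.X) (h : x ∈ Del S) : S.T x ∉ Del S := fun h1 => by
  have h2 := Del_odd S h1
  rw [ph_one, Del_odd S h] at h2
  omega

theorem not_Del {x : S.X} (h : S.ph 1 x = 0) : x ∉ Del S := fun h1 => by
  have := Del_odd S h1
  omega

theorem Del_ne : S.μ (Del S)ᶜ ≠ 0 := fun h => by
  have h1 := measure_mono_null (show S.Z 1 ⊆ (Del S)ᶜ from fun x hx => not_Del S hx) h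
  rw [S.measure_Z] at h1
  simp at h1

/-- The induced map. -/
def W : S.X ≃ᵐ S.X := indE S.T (Del_meas S) (Del_step S)

/-- The induced measure. -/
def m : Measure S.X := res S.μ (Del S)

instance : IsProbabilityMeasure (m S) := res_prob (Del_ne S)

theorem W_mp : MeasurePreserving (W S) (m S) (m S) := indE_mp S.mp

theorem lint_wd (J t : ℕ) (ht : t < 2 ^ J) (G : 𝒯.W J → ℝ≥0∞) :
    (2 ^ J * Fintype.card (𝒯.W J) : ℝ≥0∞) * ∫⁻ x in {x | S.ph J x = t}, G (S.wd J x) ∂S.μ =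
      ∑ v, G v := by
  let _ : MeasurableSpace (𝒯.W J) := ⊤
  have : DiscreteMeasurableSpace (𝒯.W J) := ⟨fun _ => trivial⟩
  have hm : Measurable (β := 𝒯.W J) (S.wd J) := S.measurable_wd J
  rw [← lintegral_map Measurable.of_discrete hm, lintegral_fintype, Finset.mul_sum]
  refine Finset.sum_congr rfl fun v _ => ?_
  have h1 := S.law J t v (by rwa [𝒯.toG_H])
  rw [𝒯.toG_H] at h1
  rw [Measure.map_apply hm MeasurableSet.of_discrete,
    Measure.restrict_apply (hm MeasurableSet.of_discrete), inter_comm]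
  erw [h1]
  push_cast
  rw [mul_left_comm]
  erw [ENNReal.mul_inv_cancel (by simp) (by finiteness), mul_one]

theorem lint_shift (i : ℕ) {A B : Set S.X} (h : ∀ x ∈ A, S.T^[i] x ∈ B) (f : S.X → ℝ≥0∞) :
    ∫⁻ x in A, f (S.T^[i] x) ∂S.μ ≤ ∫⁻ x in B, f x ∂S.μ := by
  have he : MeasurableEmbedding S.T^[i] := by
    clear h
    induction i with
    | zero => exact MeasurableEmbedding.id
    | succ i ih => exact ih.comp S.T.measurableEmbedding
  rw [← (S.mp.iterate i).setLIntegral_comp_preimage_emb he f B]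
  exact lintegral_mono_set h

theorem lint_inv (J t : ℕ) (ht : t < 2 ^ J) {f : S.X → ℝ≥0∞} (hf : ∀ x, f (S.T x) = f x) :
    ∫⁻ x, f x ∂S.μ ≤ 2 ^ J * ∫⁻ x in {x | S.ph J x = t}, f x ∂S.μ := by
  have h1 : ∀ i x, f (S.T^[i] x) = f x := fun i x => by
    induction i with
    | zero => rfl
    | succ i ih => rw [Function.iterate_succ_apply', hf, ih]
  have h2 : (univ : Set S.X) ⊆ ⋃ i : Fin (2 ^ J), {x | S.ph J (S.T^[i] x) = t} := fun x _ => by
    have h3 := ph_lt S J x
    refine mem_iUnion.2 ⟨⟨(t + 2 ^ J - S.ph J x) % 2 ^ J, Nat.mod_lt _ (by omega)⟩, ?_⟩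
    show S.ph J (S.T^[_] x) = t
    rw [ph_iter, Nat.add_mod_mod, Nat.add_sub_cancel' (by omega), Nat.add_mod_right,
      Nat.mod_eq_of_lt ht]
  rw [← setLIntegral_univ]
  refine (lintegral_mono_set h2).trans ((lintegral_iUnion_le _ _).trans ?_)
  rw [tsum_fintype]
  refine (Finset.sum_le_card_nsmul _ _ (∫⁻ x in {x | S.ph J x = t}, f x ∂S.μ)
    fun i _ => ?_).trans_eq (by simp)
  refine le_trans (le_of_eq ?_)
    (lint_shift S i (A := {x | S.ph J (S.T^[i] x) = t}) (fun x hx => hx) f)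
  simp only [h1]

end Vale.Agent.N109W
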