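import Vale.Agent.N109.Ent

/-! Induced maps with return times one and two. -/

noncomputable section

open MeasureTheory Set Filter Topology
open scoped ENNReal

namespace Vale.Agent.N109W

open Vale.Agent.P109.KS Vale.Agent.N109

variable {X : Type} [MeasurableSpace X] {μ : Measure X} {D : Set X}

open Classical in
/-- One step, or two steps if the first step lands in `D`. -/
def ind (T : X → X) (D : Set X) (x : X) : X := if T x ∈ D then T (T x) else T x

theorem ind_meas {T : X → X} (hT : Measurable T) (hD : MeasurableSet D) : Measurable (ind T D) :=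
  Measurable.ite (hT hD) (hT.comp hT) hT

theorem ind_mp {T : X → X} (hT : MeasurePreserving T μ μ) (hD : MeasurableSet D)
    (h0 : μ (D ∩ T ⁻¹' D) = 0) : MeasurePreserving (ind T D) (μ.restrict Dᶜ) (μ.restrict Dᶜ) := by
  have hm := hT.measurable
  refine ⟨ind_meas hm hD, Measure.ext fun s hs => ?_⟩
  have h1 : ∀ᵐ x ∂μ, x ∉ D ∩ T ⁻¹' D := measure_eq_zero_iff_ae_notMem.1 h0
  have hs' := hs.inter hD.compl
  rw [Measure.map_apply (ind_meas hm hD) hs, Measure.restrict_apply (ind_meas hm hD hs),
    Measure.restrict_apply hs, ← measure_inter_add_sdiff _ (hm hD),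
    ← hT.measure_preimage hs'.nullMeasurableSet, ← measure_inter_add_sdiff (T ⁻¹' _) hD,
    ← hT.measure_preimage ((hm hs').inter hD).nullMeasurableSet]
  congr 1
  · refine measure_congr (eventuallyEq_set.2 ?_)
    filter_upwards [h1, hT.quasiMeasurePreserving.ae h1] with x a b
    by_cases h : T x ∈ D <;> simp_all [ind]
  · congr 1
    ext x
    by_cases h : T x ∈ D <;> simp [ind, h, and_comm]

open Classical in
/-- The map induced on the complement of `D`, extended by the identity on `D`. -/
def indE (T : X ≃ᵐ X) (hD : MeasurableSet D) (h : ∀ x ∈ D, T x ∉ D) : X ≃ᵐ X where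
  toFun x := if x ∈ D then x else ind T D x
  invFun x := if x ∈ D then x else ind T.symm D x
  left_inv x := by
    by_cases h1 : x ∈ D
    · simp [h1]
    · by_cases h2 : T x ∈ D
      · simp [h1, h2, ind, h _ h2]
      · simp [h1, h2, ind]
  right_inv x := by
    have h' : ∀ y ∈ D, T.symm y ∉ D := fun y hy hh => h _ hh (by simpa using hy)
    by_cases h1 : x ∈ D
    · simp [h1]
    · by_cases h2 : T.symm x ∈ D
      · simp [h1, h2, ind, h' _ h2]
      · simp [h1, h2, ind]
  measurable_toFun := Measurable.ite hD measurable_id (ind_meas T.measurable hD)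
  measurable_invFun := Measurable.ite hD measurable_id (ind_meas T.symm.measurable hD)

/-- The normalised restriction to the complement of `D`. -/
def res (μ : Measure X) (D : Set X) : Measure X := (μ Dᶜ)⁻¹ • μ.restrict Dᶜ

theorem res_prob [IsFiniteMeasure μ] (h : μ Dᶜ ≠ 0) : IsProbabilityMeasure (res μ D) :=
  ⟨by simp [res, ENNReal.inv_mul_cancel h (measure_ne_top _ _)]⟩

variable {T : X ≃ᵐ X} {hD : MeasurableSet D} {h : ∀ x ∈ D, T x ∉ D}

theorem indE_of_mem {x : X} (hx : x ∈ D) : indE T hD h x = x := if_pos hx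

theorem indE_one {x : X} (hx : x ∉ D) (h1 : T x ∉ D) : indE T hD h x = T x :=
  (if_neg hx).trans (if_neg h1)

theorem indE_two {x : X} (hx : x ∉ D) (h1 : T x ∈ D) : indE T hD h x = T (T x) :=
  (if_neg hx).trans (if_pos h1)

theorem res_ae (hD : MeasurableSet D) : ∀ᵐ x ∂res μ D, x ∉ D :=
  Measure.ae_smul_measure (ae_restrict_mem hD.compl) _

theorem indE_mp (hT : MeasurePreserving T μ μ) :
    MeasurePreserving (indE T hD h) (res μ D) (res μ D) := by
  have h0 : D ∩ T ⁻¹' D = ∅ := eq_empty_of_forall_notMem fun x hx => h x hx.1 hx.2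
  refine ((ind_mp hT hD (by rw [h0, measure_empty])).smul_measure _).congr
    (indE T hD h).measurable ?_
  filter_upwards [res_ae (μ := μ) hD] with x hx
  exact (if_neg hx).symm

theorem indE_iter {x : X} (hx : x ∉ D) (m : ℕ) :
    ∃ n, m ≤ n ∧ n ≤ 2 * m ∧ (indE T hD h)^[m] x = T^[n] x ∧ T^[n] x ∉ D := by
  induction m with
  | zero => exact ⟨0, le_rfl, le_rfl, rfl, hx⟩
  | succ m ih =>
    obtain ⟨n, h1, h2, h3, h4⟩ := ih
    by_cases h5 : T (T^[n] x) ∈ D
    · refine ⟨n + 2, by omega, by omega, ?_, ?_⟩ <;>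
        simp only [Function.iterate_succ_apply', h3]
      exacts [indE_two h4 h5, h _ h5]
    · refine ⟨n + 1, by omega, by omega, ?_, ?_⟩ <;>
        simp only [Function.iterate_succ_apply', h3]
      exacts [indE_one h4 h5, h5]

/-- The position of the `m`-th visit, read off the pattern of visits to `D`. -/
def vis (b : ℕ → Prop) [DecidablePred b] : ℕ → ℕ
  | 0 => 0
  | m + 1 => if b 0 then 0 else if b (vis b m + 1) then vis b m + 2 else vis b m + 1

theorem vis_le (b : ℕ → Prop) [DecidablePred b] (m : ℕ) : vis b m ≤ 2 * m := by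
  induction m with
  | zero => exact le_rfl
  | succ m ih =>
    unfold vis
    split_ifs <;> omega

open Classical in
theorem indE_vis (x : X) (N : ℕ) (m : ℕ) (hm : 2 * m ≤ N) :
    (indE T hD h)^[m] x = T^[vis (fun i => i < N ∧ T^[i] x ∈ D) m] x ∧
      (x ∉ D → T^[vis (fun i => i < N ∧ T^[i] x ∈ D) m] x ∉ D) := by
  induction m with
  | zero => exact ⟨rfl, id⟩
  | succ m ih =>
    obtain ⟨h1, h2⟩ := ih (by omega)
    have h3 := vis_le (fun i => i < N ∧ T^[i] x ∈ D) m
    by_cases hx : x ∈ D
    · rw [vis, if_pos ⟨by omega, hx⟩, Function.iterate_fixed (indE_of_mem hx)]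
      exact ⟨rfl, fun h => (h hx).elim⟩
    · rw [vis, if_neg fun h => hx h.2, Function.iterate_succ_apply', h1]
      split_ifs with h4
      · rw [Function.iterate_succ_apply'] at h4
        simp only [Function.iterate_succ_apply']
        exact ⟨indE_two (h2 hx) h4.2, fun _ => h _ h4.2⟩
      · rw [Function.iterate_succ_apply', not_and] at h4
        simp only [Function.iterate_succ_apply']
        exact ⟨indE_one (h2 hx) (h4 (by omega)), fun _ => h4 (by omega)⟩

theorem shannon_res [IsProbabilityMeasure μ] (h0 : μ Dᶜ ≠ 0) {A : Type} [Fintype A] {F : X → A}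
    (hF : MF F) (hd : ∀ x y, F x = F y → x ∈ D → y ∈ D) :
    shannon (res μ D) F ≤ (μ.real Dᶜ)⁻¹ * shannon μ F := by
  have hc : 0 < μ.real Dᶜ := ENNReal.toReal_pos h0 (measure_ne_top _ _)
  have hc1 : 1 ≤ (μ.real Dᶜ)⁻¹ := (one_le_inv₀ hc).2 measureReal_le_one
  rw [shannon, shannon, Finset.mul_sum]
  refine Finset.sum_le_sum fun a _ => ?_
  have h1 : 0 ≤ Real.negMulLog (μ.real (F ⁻¹' {a})) :=
    Real.negMulLog_nonneg measureReal_nonneg measureReal_le_one
  have h2 : (res μ D).real (F ⁻¹' {a}) = (μ.real Dᶜ)⁻¹ * μ.real (F ⁻¹' {a} ∩ Dᶜ) := by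
    simp [res, measureReal_def, Measure.restrict_apply (hF a)]
  rw [h2]
  by_cases h3 : ∃ x ∈ D, F x = a
  · obtain ⟨x, hx, rfl⟩ := h3
    rw [eq_empty_of_forall_notMem (s := F ⁻¹' {F x} ∩ Dᶜ) fun y hy =>
      hy.2 (hd x y (Eq.symm hy.1) hx)]
    simp only [measureReal_empty, mul_zero, Real.negMulLog_zero]
    positivity
  · rw [show F ⁻¹' {a} ∩ Dᶜ = F ⁻¹' {a} from inter_eq_left.2 fun y hy hy' => h3 ⟨y, hy', hy⟩,
      Real.negMulLog_mul]
    have h4 : Real.negMulLog (μ.real Dᶜ)⁻¹ ≤ 0 := by
      rw [Real.negMulLog]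
      have := Real.log_nonneg hc1
      nlinarith
    nlinarith [measureReal_nonneg (μ := μ) (s := F ⁻¹' {a})]

/-- Entropy zero passes to the induced map. -/
theorem indE_ks [IsProbabilityMeasure μ] (h0 : μ Dᶜ ≠ 0) (hk : ksEntropy μ T = 0) :
    ksEntropy (res μ D) (indE T hD h) = 0 := by
  classical
  have := res_prob h0
  refine le_antisymm (iSup_le fun k => iSup_le fun f => iSup_le fun hf => ?_) bot_le
  have hg : MF fun x => (f x, decide (x ∈ D)) := by
    refine MF.pair (fun a => hf (measurableSet_singleton a)) fun b => ?_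
    cases b
    · convert hD.compl using 1
      ext x
      simp
    · convert hD using 1
      ext x
      simp
  set g := fun x => (f x, decide (x ∈ D)) with hgd
  have h1 : Tendsto (fun n : ℕ => ENNReal.ofReal (shannon μ (name T g n) / n)) atTop (𝓝 0) :=
    tendsto_of_le_liminf_of_limsup_le bot_le ((rate_le_ks T.measurable hg).trans hk.le)
  have h2 := ENNReal.Tendsto.const_mul (a := ENNReal.ofReal ((μ.real Dᶜ)⁻¹ * 2))
    (h1.comp (tendsto_id.const_mul_atTop' (show 0 < 2 by norm_num))) (Or.inr ENNReal.ofReal_ne_top)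
  rw [mul_zero] at h2
  refine le_trans (limsup_le_limsup ?_) h2.limsup_eq.le
  filter_upwards [eventually_gt_atTop 0] with n hn
  have hn' : (0 : ℝ) < n := by exact_mod_cast hn
  have h3 := measurableSet_name T.measurable hg (2 * n)
  obtain ⟨φ, h4⟩ : ∃ φ : (Fin (2 * n) → Fin k × Bool) → Fin n → Fin k,
      name (indE T hD h) f n = fun x => φ (name T g (2 * n) x) := by
    refine ⟨fun u i => (u ⟨vis (fun j => ∃ hj : j < 2 * n, (u ⟨j, hj⟩).2 = true) i,
        (vis_le _ _).trans_lt (by omega)⟩).1, funext fun x => funext fun i => ?_⟩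
    simp only [name, hgd, (indE_vis (hD := hD) (h := h) x (2 * n) i (by omega)).1,
      decide_eq_true_eq, exists_prop]
  have h5 : shannon (res μ D) (name (indE T hD h) f n) ≤
      (μ.real Dᶜ)⁻¹ * shannon μ (name T g (2 * n)) := by
    rw [h4]
    exact (shannon_comp_le (μ := res μ D) h3 φ).trans (shannon_res h0 h3 fun x y e hx => by
      simpa [name, hgd, hx] using (congrArg Prod.snd (congrFun e ⟨0, by omega⟩)).symm)
  simp only [Function.comp, id]
  rw [← ENNReal.ofReal_mul (by positivity)]
  refine ENNReal.ofReal_le_ofReal ((div_le_div_of_nonneg_right h5 hn'.le).trans_eq ?_)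
  push_cast
  field_simp

end Vale.Agent.N109W
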