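import Vale.Agent.N109W.Tow
import Vale.Agent.P109.F674.Done

/-! The induced map is not a factor of a predictable system. -/

noncomputable section

open MeasureTheory Set Filter Topology
open scoped ENNReal

namespace Vale.Agent.N109W

open Vale.Agent.P109 H462 H462.Sched A424 Ent

/-- Predictability, only for the letters and only on the bases of the towers. -/
def PredZ (Fam : OV.Family (sched.W 0)) {t : sched.Rels} {M : Type} [MeasurableSpace M]
    {ν : Measure M} {S : M → M} (P : Phased sched t ν S) : Prop :=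
  ∃ α : M → sched.W 0, Measurable α ∧ ν {z | α z ≠ P.w 0 z} ≤ ENNReal.ofReal (1 / 10 ^ 6) ∧
    ∃ (N : ℕ) (C : ℝ), 0 < C ∧ ∀ ρ : ℝ, 0 < ρ → ρ ≤ 1 →
      ∃ Bad : Finset ℕ, (Bad.card : ℝ) ≤ C / (1 / 10 * ρ ^ 2) ∧
        ∀ j, (C / (1 / 10 * ρ)) ^ 2 ≤ 2 ^ j → j ∉ Bad → ∀ B : ℕ, ρ * 2 ^ j ≤ B →
          ∃ L ∈ Fam N B (2 ^ (j + 1)), ∃ G : Set M, MeasurableSet G ∧
            (2 ^ (j + 1) : ℝ≥0∞) * ν ((P.Z (j + 1) ∩ P.M0) \ G) ≤ ENNReal.ofReal (1 / 10) ∧
            ∀ s : Set (Fin (2 ^ (j + 1)) → sched.W 0),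
              ν (G ∩ {z | OV.name S α (2 ^ (j + 1)) z ∈ s}) ≤ 2 * L s

/-- The argument of `A424.not_predictable` uses only `PredZ`. -/
theorem not_predZ {Fam : OV.Family (sched.W 0)} {c : ℕ → ℕ}
    (hmass : ∀ N B n, ∀ L ∈ Fam N B n, L Set.univ ≤ 1) {t : sched.Rels}
    (horc : OracleProp Fam c t) (hlist : ∀ j, Sched.ListProp t j (1 / 100))
    {M : Type} [MeasurableSpace M] {ν : Measure M} [IsFiniteMeasure ν] {S : M → M}
    (hS : MeasurePreserving S ν ν) (P : Phased sched t ν S) : ¬ PredZ Fam P := by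
  classical
  rintro ⟨α, hα, hαβ, N, C, hC, hmain⟩
  have hε : ν.real {z | α z ≠ P.w 0 z} ≤ 1 / 10 ^ 6 :=
    ENNReal.toReal_le_of_le_ofReal (by norm_num) hαβ
  obtain ⟨σ, hσ⟩ := exists_stretch C hC N c
  have hJpos := Jlen_pos σ
  obtain ⟨Bad, hBad, hlev⟩ := hmain ((1 / 2) ^ (σ + 1)) (by positivity)
    (pow_le_one₀ (by norm_num) (by norm_num))
  obtain ⟨-, -, -, hJ2, -, -, -, hκJ⟩ := hσ (js σ) le_rfl (by omega)
  set Sset : Finset ℕ := (Finset.range (Jlen σ)).filter fun i => js σ + i ∉ Bad with hSset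
  have hcard : Jlen σ ≤ 2 * Sset.card := by
    have h2 := Finset.card_filter_add_card_filter_not (s := Finset.range (Jlen σ))
      (fun i => js σ + i ∉ Bad)
    rw [Finset.card_range, ← hSset] at h2
    have h3 : ((Finset.range (Jlen σ)).filter fun i => ¬ (js σ + i ∉ Bad)).card ≤ Bad.card :=
      Finset.card_le_card_of_injOn (fun i => js σ + i) (fun i hi => Finset.mem_coe.2
        (not_not.1 (Finset.mem_filter.1 (Finset.mem_coe.1 hi)).2))
        fun a _ b _ hab => Nat.add_left_cancel hab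
    have h5 : 2 * Bad.card ≤ Jlen σ := by
      have : (2 : ℝ) * Bad.card ≤ Jlen σ := by linarith [hBad.trans hJ2]
      exact_mod_cast this
    omega
  refine stretch_contradiction (J := Jlen σ) (κ0 := sched.κ (js σ)) hJpos hκJ
    (fun i => Hc (P.mi (js σ) α i)) (fun i => Hc_nonneg _ (P.mi_nonneg _ _ _))
    (base_entropy P hS hα (js σ) hε (hlist _))
    (fun i _ => P.Hc_succ_le hS hα (js σ) i) (fun i => sched.κ (js σ + i))
    (fun i => sched.lam (js σ + i)) (fun i hi => sched_κ_half hi.le)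
    (fun i hi => sched_lam_stretch hi) Sset (Finset.filter_subset _ _) ?_ hcard
  intro i hi
  rw [hSset, Finset.mem_filter, Finset.mem_range] at hi
  obtain ⟨hiJ, hiB⟩ := hi
  obtain ⟨hN, hcN, hthr, -, hρκ, hn1, hn2, -⟩ := hσ (js σ + i) (by omega) (by omega)
  obtain ⟨L, hL, G, hG, hZ, hG2⟩ := hlev (js σ + i) hthr hiB (sched.κ (js σ + i)) hρκ
  have hnn : ∑ v, ∑ w, (if nr t (js σ) i w v then 0 else P.mi (js σ) α i w v) ≤ 1 / 50 := by
    rw [P.sum_not hS hα (js σ) i (nr t (js σ) i)]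
    exact near_mass P hS hα (js σ) i hε
  have hn2' : (2 ^ sched.κ (js σ + i + 1) : ℝ)⁻¹ * 2 / thr sched (js σ + i) ≤ 1 / 20 := by
    unfold thr
    rw [neg_mul]
    exact hn2
  exact simple_level horc hS P hα hiJ hN hcN hnn hL (hmass _ _ _ L hL) hG hZ hG2 hn1 hn2'

/-- The family of laws for the tower. -/
def Fam' {A : Type} [MeasurableSpace A] (Fam : OV.Family (A × A)) : OV.Family A :=
  fun N B n => (fun L => L.map (rd n)) '' Fam N B n

theorem small' {A : Type} [MeasurableSpace A] [Finite A] [MeasurableSingletonClass A]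
    {Fam : OV.Family (A × A)} (h : OV.SmallFamily Fam) : OV.SmallFamily (Fam' Fam) := by
  refine ⟨?_, fun N => ?_⟩
  · rintro N B n _ ⟨L, hL, rfl⟩
    rw [Measure.map_apply (measurable_of_finite _) MeasurableSet.univ]
    exact h.1 N B n L hL
  · obtain ⟨c, hc⟩ := h.2 N
    exact ⟨c, fun B n => ⟨(hc B n).1.image _, (ncard_image_le (hc B n).1).trans (hc B n).2⟩⟩

variable {t : sched.Rels} {S : (sched.tower t).toG.Sys} {M : Type} [MeasurableSpace M]
  {ν : Measure M} {F : M → M} (e : Ext S ν F)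

/-- The phases and words of the system itself. -/
def P₀ (S : (sched.tower t).toG.Sys) : Phased sched t S.μ S.T :=
  Phased.ofSys S (MeasurePreserving.id _) MeasurableSet.univ (by simp) rfl fun _ _ => rfl

/-- The phases and words on the tower. -/
def Ext.P : Phased sched t e.ν' e.F' where
  M0 := Prod.fst ⁻¹' (e.M₀ ∩ e.E)
  τ j p := S.ph j (e.π' p)
  w j p := S.wd j (e.π' p)
  hM0 := measurable_fst (e.meas.inter e.E_meas)
  hM0null := le_antisymm ((e.ν'_le _).trans (by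
    have h : ν ((e.M₀ ∩ e.E)ᶜ ∩ e.E) = 0 :=
      measure_mono_null (fun z hz h => hz.1 ⟨h, hz.2⟩) e.null
    exact (add_le_add h.le h.le).trans_eq (add_zero _))) bot_le
  hM0inv p hp := (e.fac' hp.1 hp.2).2
  hτ j a := e.π'_meas ((P₀ S).hτ j a)
  hw j a := e.π'_meas ((P₀ S).hw j a)
  τ_lt j p := (P₀ S).τ_lt j _
  step j p hp h := by
    rw [(e.fac' hp.1 hp.2).1]
    exact (P₀ S).step j _ trivial h
  lo j p := (P₀ S).lo j _
  hi j p := (P₀ S).hi j _
  law j i v hi := (e.π'_mp.measure_preimage (((P₀ S).hτ j i).inter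
    ((P₀ S).hw j v)).nullMeasurableSet).trans ((P₀ S).law j i v hi)

theorem Ext.predZ {Fam : OV.Family (sched.W 0 × sched.W 0)} (h : OV.Predictable Fam ν F) :
    PredZ (Fam' Fam) e.P := by
  have hw : Measurable ((P₀ S).w 0) := measurable_to_countable' fun a => (P₀ S).hw 0 a
  have hπ := e.hπ.measurable
  obtain ⟨α, hα, h1, N, C, hC, h2⟩ := h (fun z => ((P₀ S).w 0 (e.π z), (P₀ S).w 0 (S.T (e.π z))))
    ((hw.comp hπ).prodMk (hw.comp (S.T.measurable.comp hπ))) (1 / 10 ^ 6 / 2) (by norm_num)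
  set α' : M × Bool → sched.W 0 := fun p => if p.2 = true then (α p.1).2 else (α p.1).1 with hα'
  have hα'm : Measurable α' := Measurable.ite Ext.bool_meas
    (measurable_snd.comp (hα.comp measurable_fst)) (measurable_fst.comp (hα.comp measurable_fst))
  refine ⟨α', hα'm, (e.ν'_le _).trans ((add_le_add ((measure_mono fun z hz h => ?_).trans h1)
    ((measure_mono fun z hz h => ?_).trans h1)).trans_eq ?_), N, 2 * C, by positivity,
    fun ρ hρ hρ1 => ?_⟩
  · exact hz.1 (congrArg Prod.fst h)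
  · exact hz.1 (congrArg Prod.snd h)
  · rw [← ENNReal.ofReal_add (by norm_num) (by norm_num), add_halves]
  obtain ⟨Bad, h3, h4⟩ := h2 ρ (1 / 20) hρ hρ1 (by norm_num) (by norm_num)
  refine ⟨Bad, h3.trans_eq (by field_simp; norm_num), fun j hj hb B hB => ?_⟩
  obtain ⟨L, hL, G, hG, h5, h6⟩ := h4 j (le_of_eq_of_le (by field_simp; norm_num) hj) hb B hB
  have hY : ∀ J t, MeasurableSet (e.M₀ ∩ e.π ⁻¹' {x | S.ph J x = t}) := fun J t =>
    e.meas.inter (hπ (S.measurableSet_ph J t))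
  have h7 : ∀ t, t % 2 = 0 → (2 ^ (j + 1) : ℝ≥0∞) *
      ν ((e.M₀ ∩ e.π ⁻¹' {x | S.ph (j + 1 + 1) x = t}) \ G) ≤ ENNReal.ofReal (1 / 20) :=
    fun t ht => h5 _ (hY _ _) fun i hi i' hi' hne => by
      rcases lt_or_gt_of_ne hne with h | h
      · exact e.disj (by omega) ht h hi'
      · exact (e.disj (by omega) ht h hi).symm
  refine ⟨_, ⟨L, hL, rfl⟩, (G ∩ (e.M₀ ∩ e.π ⁻¹' {x | S.ph (j + 1) x = 0})) ×ˢ {false},
    (hG.inter (hY _ _)).prod (measurableSet_singleton _), ?_, fun s => ?_⟩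
  · refine (mul_le_mul_right ((e.ν'_le _).trans (add_le_add (measure_mono (t :=
      (e.M₀ ∩ e.π ⁻¹' {x | S.ph (j + 1 + 1) x = 0}) \ G ∪
        (e.M₀ ∩ e.π ⁻¹' {x | S.ph (j + 1 + 1) x = 2 ^ (j + 1)}) \ G) ?_)
      (measure_mono (t := ∅) ?_))) _).trans ?_
    · rintro z ⟨⟨⟨a, b⟩, c⟩, d⟩
      have a' : S.ph (j + 1) (e.π z) = 0 := a
      have c' : z ∉ G := fun hz => c ⟨⟨hz, b.1, a⟩, rfl⟩
      have h8 := ph_mod S (Nat.le_succ (j + 1)) (e.π z)
      have h9 := ph_lt S (j + 1 + 1) (e.π z)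
      rw [pow_succ] at h9
      rcases lt_or_ge (S.ph (j + 1 + 1) (e.π z)) (2 ^ (j + 1)) with h | h
      · rw [Nat.mod_eq_of_lt h, a'] at h8
        exact Or.inl ⟨⟨b.1, h8⟩, c'⟩
      · rw [Nat.mod_eq_sub_mod h, Nat.mod_eq_of_lt (by omega), a'] at h8
        exact Or.inr ⟨⟨b.1, show S.ph (j + 1 + 1) (e.π z) = _ by omega⟩, c'⟩
    · rintro z ⟨⟨⟨a, -⟩, -⟩, d⟩
      have a' : S.ph (j + 1) (S.T (e.π z)) = 0 := a
      have d' : S.ph 1 (e.π z) = 0 := d
      have h8 := ph_mod S (show 1 ≤ j + 1 by omega) (S.T (e.π z))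
      rw [a', ph_one, d'] at h8
      omega
    · rw [measure_empty, add_zero]
      refine (mul_le_mul_right (measure_union_le _ _) _).trans ?_
      rw [mul_add]
      refine (add_le_add (h7 0 rfl) (h7 _ (by rw [pow_succ]; omega))).trans_eq ?_
      rw [← ENNReal.ofReal_add (by norm_num) (by norm_num)]
      norm_num
  · rw [Measure.map_apply (measurable_of_finite _) (toFinite s).measurableSet]
    refine (e.ν'_le _).trans ((add_le_add ((measure_mono ?_).trans (h6 (rd _ ⁻¹' s)))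
      (measure_mono (t := ∅) ?_)).trans (by simp))
    · rintro z ⟨⟨⟨⟨a, b, c⟩, -⟩, d⟩, f⟩
      refine ⟨a, ?_⟩
      have : rd _ (OV.name F α (2 ^ (j + 1)) z) = OV.name e.F' α' (2 ^ (j + 1)) (z, false) := by
        funext k
        simp only [rd, OV.name, hα', e.F'_iter, decide_eq_true_eq,
          (e.iter b f c (k / 2) (by omega)).1]
      show rd _ (OV.name F α (2 ^ (j + 1)) z) ∈ s
      rw [this]
      exact d
    · rintro z ⟨⟨⟨-, a⟩, -⟩, -⟩
      exact Bool.noConfusion a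

/-- The weakly mixing system which is not a factor of a smooth system. -/
theorem exists_sys : ∃ (t : sched.Rels) (S : (sched.tower t).toG.Sys),
    ¬ Smooth.IsSmoothFactor (m S) (W S) := by
  have := F674.nonempty_W
  obtain ⟨hmass, hc⟩ := small' (CH469.smallFamily (A := sched.W 0 × sched.W 0))
  choose c hc using hc
  obtain ⟨t, horc, hlist⟩ := exists_choice hc
  refine ⟨t, (F674.tw t).sys, ?_⟩
  have key : ∀ (M : Type) [MeasurableSpace M] (ν : Measure M) [IsProbabilityMeasure ν]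
      (F : M ≃ᵐ M), MeasurePreserving F ν ν → OV.Predictable (CH469.Fam : OV.Family (sched.W 0 × sched.W 0)) ν F →
      ¬ ∃ (π : M → (F674.tw t).sys.X) (M₀ : Set M), MeasurePreserving π ν (m _) ∧
        MeasurableSet M₀ ∧ ν M₀ᶜ = 0 ∧ F ⁻¹' M₀ = M₀ ∧ ∀ y ∈ M₀, π (F y) = W _ (π y) := by
    rintro M _ ν _ F hF hP ⟨π, M₀, h1, h2, h3, h4, h5⟩
    let e : Ext (F674.tw t).sys ν F := ⟨π, M₀, hF, h1, h2, h3, fun z hz => h4.ge hz, h5⟩
    have : IsFiniteMeasure e.ν' := ⟨(e.ν'_le _).trans_lt (by finiteness)⟩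
    exact not_predZ hmass horc hlist e.F'_mp e.P (e.predZ hP)
  rintro (⟨d, hd⟩ | ⟨d, hd0, hd⟩)
  · exact Smooth.not_isFactorOn (CH469.smoothSide_boundaryless _ d) key hd
  · exact Smooth.not_isFactorOn (CH469.smoothSide_boundary _ d) key hd

end Vale.Agent.N109W
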