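import Vale.Agent.N109W.Del

/-! The product of the induced map with every ergodic system is ergodic. -/

noncomputable section

open MeasureTheory Set Filter Topology
open scoped ENNReal symmDiff

namespace Vale.Agent.N109W

open Vale.Agent.P109

variable {𝒯 : Tower} (S : 𝒯.toG.Sys)

open Classical in
/-- The number of visits outside the deleted set at the times `1, …, n`. -/
def cnt (x : S.X) (n : ℕ) : ℕ := ∑ k ∈ Finset.range n, if S.T (S.T^[k] x) ∈ Del S then 0 else 1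

open Classical in
/-- The number of positions `1, …, n` which are not deleted. -/
def cn (n : ℕ) : ℕ := ∑ k ∈ Finset.range n, if del (k + 1) then 0 else 1

theorem cnt_eq {j i : ℕ} {z : S.X} (hz : S.ph j z = 0) (hi : i + 1 < 2 ^ j) : cnt S z i = cn i := by
  refine Finset.sum_congr rfl fun k hk => ?_
  have h1 := Finset.mem_range.1 hk
  have h2 : S.ph j (S.T^[k + 1] z) = k + 1 := by
    rw [ph_iter, hz, zero_add, Nat.mod_eq_of_lt (by omega)]
  have h3 := mem_Del S (J := j) (x := S.T^[k + 1] z) (by omega)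
  rw [h2, Function.iterate_succ_apply'] at h3
  by_cases h : del (k + 1)
  · rw [if_pos h, if_pos (h3.2 h)]
  · rw [if_neg h, if_neg (mt h3.1 h)]

theorem cnt_block {j J k : ℕ} {z : S.X} (hj : 1 ≤ j) (hz : S.ph j z = 0) (hk : k < J)
    (h : S.ph J z + 2 ^ j = 2 ^ k) :
    cnt S z (2 ^ j) = cn (2 ^ j - 2) + (if Odd k then 0 else 1) + 1 := by
  have h1 : 2 ^ 1 ≤ 2 ^ j := Nat.pow_le_pow_right (by norm_num) hj
  have h2 := Nat.pow_lt_pow_right (show 1 < 2 by norm_num) hk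
  obtain ⟨n, hn⟩ : ∃ n, 2 ^ j = n + 2 := ⟨2 ^ j - 2, by omega⟩
  have h3 : S.ph J (S.T^[n + 1] z) = 2 ^ k - 1 := by
    rw [ph_iter, Nat.mod_eq_of_lt (by omega)]
    omega
  have h4 : S.ph 1 (S.T^[n + 2] z) = 0 := by
    rw [← ph_mod S hj, ph_iter, hz, hn, zero_add, Nat.mod_self, Nat.zero_mod]
  have h5 := mem_Del S (J := J) (x := S.T^[n + 1] z) (by omega)
  rw [h3, del_pred, Function.iterate_succ_apply'] at h5
  rw [hn, Nat.add_sub_cancel, ← cnt_eq S hz (by omega), cnt, cnt, Finset.sum_range_succ,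
    Finset.sum_range_succ, ← Function.iterate_succ_apply' S.T (n + 1), if_neg (not_Del S h4)]
  simp only [h5]

variable {Y : Type} [MeasurableSpace Y] {ν : Measure Y} {R : Y → Y}

theorem dd_pre (hR : MeasurePreserving R ν ν) (n : ℕ) {A B : Set Y} (hA : MeasurableSet A)
    (hB : MeasurableSet B) : ν ((R^[n] ⁻¹' A) ∆ (R^[n] ⁻¹' B)) = ν (A ∆ B) := by
  rw [← preimage_symmDiff, (hR.iterate n).measure_preimage (hA.symmDiff hB).nullMeasurableSet]

theorem th_pre (hR : MeasurePreserving R ν ν) (n : ℕ) {A : Set Y} (hA : MeasurableSet A) :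
    ν ((R^[n + 1] ⁻¹' A) ∆ (R^[n] ⁻¹' A)) = ν ((R ⁻¹' A) ∆ A) := by
  rw [Function.iterate_succ', preimage_comp, dd_pre hR n (hR.measurable hA) hA]

theorem th_inv (hR : MeasurePreserving R ν ν) (n : ℕ) {A : Set Y} (hA : MeasurableSet A) :
    ν ((R ⁻¹' (R^[n] ⁻¹' A)) ∆ (R^[n] ⁻¹' A)) = ν ((R ⁻¹' A) ∆ A) := by
  rw [← preimage_comp, ← Function.iterate_succ, th_pre hR n hA]

/-- The estimate at one level all of whose pairs of words are adjacent. -/
theorem level (hR : MeasurePreserving R ν ν) {φ : S.X → Set Y} (hφ : ∀ x, MeasurableSet (φ x))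
    (hc : ∀ x n, φ x = R^[cnt S x n] ⁻¹' φ (S.T^[n] x)) {j : ℕ} (hj : 1 ≤ j)
    (hG : ∀ w w', 𝒯.G j w w') {Ψ : 𝒯.W j → Set Y} (hΨ : ∀ w, MeasurableSet (Ψ w))
    {η : S.X → ℝ≥0∞} (hη : Measurable η) (hη' : ∀ z, S.ph j z = 0 → ν (φ z ∆ Ψ (S.wd j z)) ≤ η z) :
    ∫⁻ x in {x | S.ph (j + 2) x = 2 ^ j}, ν ((R ⁻¹' φ x) ∆ φ x) ∂S.μ ≤
      14 * ∫⁻ x in {x | S.ph j x = 0}, η x ∂S.μ := by
  have hRm := hR.measurable
  set I := ∫⁻ x in {x | S.ph j x = 0}, η x ∂S.μ with hI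
  set m₀ := cn (2 ^ j - 2) + (if Odd j then 0 else 1) + 1 with hm₀
  set D : 𝒯.W j → 𝒯.W j → ℝ≥0∞ := fun w w' => ν (Ψ w ∆ (R^[m₀] ⁻¹' Ψ w')) with hD
  set N : ℝ≥0∞ := ((Fintype.card (𝒯.W j) : ℕ) : ℝ≥0∞) with hN
  set s := ∑ w, ∑ w', D w w' with hs
  have hp : 0 < 2 ^ j := by positivity
  have hsh : ∀ z, S.ph j z = 0 → S.ph j (S.T^[2 ^ j] z) = 0 := fun z hz => by
    rw [ph_iter, hz, zero_add, Nat.mod_self]
  have hηI : ∀ A : Set S.X, (∀ z ∈ A, S.ph j z = 0) →
      ∫⁻ z in A, η z + η (S.T^[2 ^ j] z) ∂S.μ ≤ 2 * I := fun A hA => by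
    rw [lintegral_add_left hη, two_mul]
    exact add_le_add (lintegral_mono_set hA) (lint_shift S _ (fun z hz => hsh z (hA z hz)) η)
  have hmA : ∀ J t, MeasurableSet {x | S.ph J x = t} := S.measurableSet_ph
  -- independent pairs
  have h1 : s ≤ 2 ^ j * N ^ 2 * (4 * I) := by
    let e : 𝒯.W (j + 1) ≃ 𝒯.W j × 𝒯.W j :=
      (𝒯.e j).trans (Equiv.subtypeUnivEquiv fun q => hG q.1 q.2)
    have h2 := lint_wd S (j + 1) 0 (by positivity) fun v => D (e v).1 (e v).2
    rw [e.sum_comp fun q => D q.1 q.2, Fintype.sum_prod_type, Fintype.card_congr e,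
      Fintype.card_prod] at h2
    have h3 : ∀ z, S.ph (j + 1) z = 0 → S.ph j z = 0 := fun z hz => by
      rw [← ph_mod S (Nat.le_succ j), hz, Nat.zero_mod]
    rw [hs, ← h2]
    refine (mul_le_mul_right ((setLIntegral_mono' (hmA _ _) fun z hz => ?_).trans
      (hηI _ h3)) _).trans_eq (by push_cast; ring)
    have h4 : S.wd j z = (e (S.wd (j + 1) z)).1 := S.wd_Z_succ hz
    have h5 : S.wd j (S.T^[2 ^ j] z) = (e (S.wd (j + 1) z)).2 := by
      have := S.wd_iterate_Z hz ⟨1, Nat.one_lt_two⟩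
      rwa [one_mul, 𝒯.toG_H] at this
    have h6 := hc z (2 ^ j)
    rw [cnt_block S hj (h3 z hz) (Nat.lt_succ_self j) (by rw [show S.ph (j + 1) z = 0 from hz,
      zero_add])] at h6
    rw [← h4, ← h5]
    refine (measure_symmDiff_le _ (φ z) _).trans (add_le_add ?_ ?_)
    · rw [symmDiff_comm]
      exact hη' z (h3 z hz)
    · rw [h6]
      exact (dd_pre hR m₀ (hφ _) (hΨ _)).trans_le (hη' _ (hsh z (h3 z hz)))
  -- the pairs with the other gap
  have h3 : ∀ z, S.ph (j + 2) z = 2 ^ j → S.ph j z = 0 := fun z hz => by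
    rw [← ph_mod S (show j ≤ j + 2 by omega), hz, Nat.mod_self]
  have hw : ∀ g : 𝒯.W j → ℝ≥0∞, Measurable fun x => g (S.wd j x) := fun g =>
    (measurable_from_top (f := g)).comp (S.measurable_wd j)
  have h4 : ∀ u u', N ^ 2 * D u u' ≤ N * ∑ w', D u w' + s + N * ∑ w, D w u' := fun u u' => by
    have : ∑ _w : 𝒯.W j, ∑ _w' : 𝒯.W j, D u u' ≤ ∑ w, ∑ w', (D u w' + D w w' + D w u') := by
      refine Finset.sum_le_sum fun w _ => Finset.sum_le_sum fun w' _ => ?_
      refine (measure_symmDiff_le _ (Ψ w) _).trans (add_le_add_left ?_ _)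
      refine (measure_symmDiff_le _ (R^[m₀] ⁻¹' Ψ w') _).trans (add_le_add_right ?_ _)
      rw [symmDiff_comm]
    simpa [Finset.sum_add_distrib, Finset.mul_sum, ← hN, ← hs, sq, mul_assoc] using this
  have h5 : 2 ^ j * N ^ 2 * ∫⁻ z in {x | S.ph (j + 2) x = 2 ^ j},
      D (S.wd j z) (S.wd j (S.T^[2 ^ j] z)) ∂S.μ ≤ 3 * s := by
    have a1 := lint_wd S j 0 hp fun u => ∑ w', D u w'
    have a2 := lint_wd S j 0 hp fun _ => s
    have a3 := lint_wd S j 0 hp fun u => ∑ w, D w u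
    rw [Finset.sum_comm, ← hs] at a3
    rw [← hs] at a1
    rw [Finset.sum_const, Finset.card_univ, nsmul_eq_mul, mul_comm _ N, mul_assoc,
      ENNReal.mul_right_inj (by simp [hN]) (by simp [hN])] at a2
    rw [mul_assoc, ← lintegral_const_mul' _ _ (by simp [hN])]
    refine (mul_le_mul_right (lintegral_mono fun z => h4 _ _) _).trans ?_
    rw [lintegral_add_left ((hw fun u => N * ∑ w', D u w' + s)),
      lintegral_add_right _ measurable_const, lintegral_const_mul' _ _ (by simp [hN]),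
      lintegral_const_mul' _ _ (by simp [hN]), mul_add, mul_add, ← mul_assoc, ← mul_assoc,
      show 3 * s = s + s + s by ring]
    refine add_le_add (add_le_add ?_ ?_) ?_
    · exact (mul_le_mul_right (lintegral_mono_set h3) _).trans_eq a1
    · exact (mul_le_mul_right (lintegral_mono_set h3) _).trans_eq a2
    · exact (mul_le_mul_right (lint_shift S _ (fun z hz => hsh z (h3 z hz))
        fun x => ∑ w, D w (S.wd j x)) _).trans_eq a3
  have h6 := (ENNReal.mul_le_mul_iff_right (by simp [hN]) (by finiteness)).1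
    (h5.trans ((mul_le_mul_right h1 3).trans_eq (mul_left_comm _ _ _)))
  have h7 : ∀ z ∈ {x | S.ph (j + 2) x = 2 ^ j}, ν ((R ⁻¹' φ z) ∆ φ z) ≤
      (η z + η (S.T^[2 ^ j] z)) + D (S.wd j z) (S.wd j (S.T^[2 ^ j] z)) := fun z hz => by
    have b1 := hc z (2 ^ j)
    rw [cnt_block S hj (h3 z hz) (show j + 1 < j + 2 by omega)
      (by rw [show S.ph (j + 2) z = 2 ^ j from hz, pow_succ]; omega)] at b1
    have b2 : ν ((R ⁻¹' φ z) ∆ φ z) = ν (φ z ∆ (R^[m₀] ⁻¹' φ (S.T^[2 ^ j] z))) := by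
      have b3 := hφ (S.T^[2 ^ j] z)
      rw [b1, hm₀, th_inv hR _ b3]
      by_cases ho : Odd j
      · rw [if_pos ho, if_neg (by simpa [Nat.odd_add_one] using ho), th_pre hR _ b3]
      · rw [if_neg ho, if_pos (by simpa [Nat.odd_add_one] using ho), symmDiff_comm (_ ⁻¹' _) (_ ⁻¹' _),
          th_pre hR _ b3]
    rw [b2]
    refine (measure_symmDiff_le _ (Ψ (S.wd j z)) _).trans ?_
    refine (add_le_add (hη' z (h3 z hz)) (measure_symmDiff_le _
      (R^[m₀] ⁻¹' Ψ (S.wd j (S.T^[2 ^ j] z))) _)).trans ?_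
    rw [add_assoc]
    refine add_le_add_right ((add_comm _ _).trans_le
      (add_le_add_left ((dd_pre hR m₀ (hΨ _) (hφ _)).trans_le ?_) _)) _
    rw [symmDiff_comm]
    exact hη' _ (hsh z (h3 z hz))
  refine (setLIntegral_mono' (hmA _ _) h7).trans ?_
  refine (lintegral_add_left (hη.add (hη.comp (S.T.measurable.iterate _))) _).trans_le ?_
  exact (add_le_add (hηI _ h3) h6).trans_eq (by ring)

/-- The sets whose sections depend only on the phase and the word of level `j`. -/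
def cell (j : ℕ) (Φ : ℕ → 𝒯.toG.W j → Set Y) : Set (S.X × Y) :=
  {p | p.2 ∈ Φ (S.ph j p.1) (S.wd j p.1)}

theorem cell_meas {j : ℕ} {Φ : ℕ → 𝒯.toG.W j → Set Y} (h : ∀ t w, MeasurableSet (Φ t w)) :
    MeasurableSet (cell S j Φ) := by
  have : cell S j Φ = ⋃ t, ⋃ w, {x | S.ph j x = t ∧ S.wd j x = w} ×ˢ Φ t w := by
    ext p
    simp only [cell, mem_iUnion, mem_prod, mem_ofPred_eq]
    exact ⟨fun hp => ⟨_, _, ⟨rfl, rfl⟩, hp⟩, by rintro ⟨_, _, ⟨rfl, rfl⟩, hp⟩; exact hp⟩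
  rw [this]
  exact MeasurableSet.iUnion fun t => MeasurableSet.iUnion fun w =>
    (S.measurableSet_cell j t w).prod (h t w)

theorem cell_le {j k : ℕ} (hjk : j ≤ k) {Φ : ℕ → 𝒯.toG.W j → Set Y}
    (h : ∀ t w, MeasurableSet (Φ t w)) :
    ∃ Φ' : ℕ → 𝒯.toG.W k → Set Y, (∀ t w, MeasurableSet (Φ' t w)) ∧ cell S j Φ = cell S k Φ' := by
  induction k, hjk using Nat.le_induction with
  | base => exact ⟨Φ, h, rfl⟩
  | succ k _ ih =>
    obtain ⟨Φ', h1, h2⟩ := ih
    refine ⟨fun t w => Φ' (t % 𝒯.toG.H k) (𝒯.toG.part k w (𝒯.toG.pos k t)), fun t w => h1 _ _,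
      h2.trans (Set.ext fun p => ?_)⟩
    simp only [cell, mem_ofPred_eq]
    rw [S.ph_mod, ← S.wd_part]

theorem exists_cell [IsProbabilityMeasure ν] {E : Set (S.X × Y)} (hE : MeasurableSet E) {ε : ℝ}
    (hε : 0 < ε) : ∃ j0, ∀ j, j0 ≤ j → ∃ Φ : ℕ → 𝒯.toG.W j → Set Y,
      (∀ t w, MeasurableSet (Φ t w)) ∧ S.μ.prod ν (E ∆ cell S j Φ) < ENNReal.ofReal ε := by
  classical
  let 𝒜 : Set (Set (S.X × Y)) := {A | ∃ j Φ, (∀ t w, MeasurableSet (Φ t w)) ∧ A = cell S j Φ}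
  have h1 : IsSetAlgebra 𝒜 := ⟨⟨0, fun _ _ => ∅, fun _ _ => .empty, rfl⟩, by
    rintro A ⟨j, Φ, h, rfl⟩
    exact ⟨j, fun t w => (Φ t w)ᶜ, fun t w => (h t w).compl, rfl⟩, by
    rintro A A' ⟨j, Φ, h, rfl⟩ ⟨k, Φ', h', rfl⟩
    obtain ⟨C, hC, e⟩ := cell_le S (le_max_left j k) h
    obtain ⟨C', hC', e'⟩ := cell_le S (le_max_right j k) h'
    exact ⟨_, fun t w => C t w ∪ C' t w, fun t w => (hC t w).union (hC' t w), by rw [e, e']; rfl⟩⟩
  have h2 : (inferInstance : MeasurableSpace (S.X × Y)) = .generateFrom 𝒜 := by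
    refine le_antisymm (sup_le ?_ ?_) (MeasurableSpace.generateFrom_le ?_)
    · rw [S.generateFrom_alg, MeasurableSpace.comap_generateFrom]
      refine MeasurableSpace.generateFrom_mono ?_
      rintro _ ⟨_, ⟨j, B, rfl⟩, rfl⟩
      exact ⟨j, fun t w => {_y | (t, w) ∈ B}, fun t w => MeasurableSet.const _, rfl⟩
    · rintro _ ⟨B, hB, rfl⟩
      exact MeasurableSpace.measurableSet_generateFrom ⟨0, fun _ _ => B, fun _ _ => hB, rfl⟩
    · rintro _ ⟨j, Φ, h, rfl⟩
      exact cell_meas S h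
  obtain ⟨_, ⟨j0, Φ, h, rfl⟩, h3⟩ := (Measure.MeasureDense.of_generateFrom_isSetAlgebra_finite
    (S.μ.prod ν) h1 h2).approx E hE (measure_ne_top _ _) ε hε
  refine ⟨j0, fun j hj => ?_⟩
  obtain ⟨Φ', h4, h5⟩ := cell_le S hj h
  exact ⟨Φ', h4, h5 ▸ h3⟩

theorem theta_zero [IsProbabilityMeasure ν] (hR : MeasurePreserving R ν ν)
    (hfull : ∀ n, ∃ j ≥ n, ∀ w w', 𝒯.G j w w') {E : Set (S.X × Y)} (hE : MeasurableSet E)
    (hc : ∀ x n, Prod.mk x ⁻¹' E = R^[cnt S x n] ⁻¹' (Prod.mk (S.T^[n] x) ⁻¹' E)) :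
    ∫⁻ x, ν ((R ⁻¹' (Prod.mk x ⁻¹' E)) ∆ (Prod.mk x ⁻¹' E)) ∂S.μ = 0 := by
  set φ : S.X → Set Y := fun x => Prod.mk x ⁻¹' E with hφd
  have hφ : ∀ x, MeasurableSet (φ x) := fun x => measurable_prodMk_left hE
  refine le_antisymm (ENNReal.le_of_forall_pos_le_add fun ε hε _ => ?_) bot_le
  obtain ⟨j0, h0⟩ := exists_cell S (ν := ν) hE (ε := ε / 112) (by positivity)
  obtain ⟨j, hj, hG⟩ := hfull (j0 + 1)
  obtain ⟨Φ, hΦ, h1⟩ := h0 j (by omega)
  have hm := hE.symmDiff (cell_meas S hΦ)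
  set δ : S.X → ℝ≥0∞ := fun x => ν (Prod.mk x ⁻¹' (E ∆ cell S j Φ)) with hδd
  have hδ : Measurable δ := measurable_measure_prodMk_left hm
  rw [Measure.prod_apply hm] at h1
  have h2 : 2 ^ 1 ≤ 2 ^ j := Nat.pow_le_pow_right (by norm_num) (by omega)
  have h3 : ∀ i ∈ Finset.range (2 ^ j - 1), ∫⁻ x, ν ((R ⁻¹' φ x) ∆ φ x) ∂S.μ ≤
      2 ^ (j + 2) * (14 * ∫⁻ x in {x | S.ph j x = i}, δ x ∂S.μ) := fun i hi => by
    have hi' := Finset.mem_range.1 hi
    have h4 : ∀ z, S.ph j z = 0 → S.ph j (S.T^[i] z) = i := fun z hz => by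
      rw [ph_iter, hz, zero_add, Nat.mod_eq_of_lt (by omega)]
    refine (lint_inv S (j + 2) (2 ^ j) (Nat.pow_lt_pow_right (by norm_num) (by omega))
      fun x => ?_).trans (mul_le_mul_right ((level S hR hφ hc (j := j) (by omega) hG
        (Ψ := fun w => R^[cn i] ⁻¹' Φ i w) (fun w => hR.measurable.iterate _ (hΦ i w))
        (hδ.comp (S.T.measurable.iterate i)) fun z hz => ?_).trans
        (mul_le_mul_right (lint_shift S i h4 δ) _)) _)
    · rw [show φ x = _ from hc x 1, th_inv hR _ (hφ _)]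
      rfl
    · rw [show φ z = _ from hc z i, cnt_eq S hz (by omega)]
      refine (dd_pre hR _ (hφ _) (hΦ _ _)).trans_le (le_of_eq ?_)
      simp only [hδd, Function.comp, preimage_symmDiff]
      congr 2
      ext y
      simp only [cell, mem_preimage, mem_ofPred_eq]
      rw [h4 z hz, S.wd_iterate (by rw [hz, 𝒯.toG_H]; omega)]
  have h4 := Finset.sum_le_sum h3
  rw [Finset.sum_const, Finset.card_range, nsmul_eq_mul, ← Finset.mul_sum, ← Finset.mul_sum,
    ← lintegral_biUnion_finset (t := fun i => {x | S.ph j x = i}) (fun a _ b _ hab => disjoint_left.2 fun x h h' =>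
      hab (Eq.trans (Eq.symm h) h')) fun i _ => S.measurableSet_ph j i] at h4
  have h5 := h4.trans (mul_le_mul_right (mul_le_mul_right
    ((setLIntegral_le_lintegral _ _).trans h1.le) _) _)
  have h6 : (2 : ℝ≥0∞) ^ (j + 2) ≤ ((2 ^ j - 1 : ℕ) : ℝ≥0∞) * 8 := by
    exact_mod_cast (show 2 ^ (j + 2) ≤ (2 ^ j - 1) * 8 by rw [pow_add]; omega)
  rw [zero_add]
  refine (ENNReal.mul_le_mul_iff_right (a := ((2 ^ j - 1 : ℕ) : ℝ≥0∞))
    (Nat.cast_ne_zero.2 (by omega)) (by simp)).1 (h5.trans ((mul_le_mul_left h6 _).trans_eq ?_))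
  rw [mul_assoc, ← mul_assoc 8, ENNReal.ofReal_div_of_pos (by norm_num), ENNReal.ofReal_coe_nnreal]
  congr 1
  rw [show (8 * 14 : ℝ≥0∞) = ENNReal.ofReal 112 by norm_num]
  exact ENNReal.mul_div_cancel (by norm_num) (by simp)

/-- **Weak mixing**: the product with every ergodic system is ergodic. -/
theorem W_ergodic [IsProbabilityMeasure ν] (hfull : ∀ n, ∃ j ≥ n, ∀ w w', 𝒯.G j w w')
    (hT : Ergodic S.T S.μ) (hR : Ergodic R ν) : Ergodic (Prod.map (W S) R) ((m S).prod ν) := by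
  classical
  refine ⟨(W_mp S).prod hR.toMeasurePreserving, ⟨fun E hE hinv => ?_⟩⟩
  set τ : S.X → S.X := fun x => if x ∈ Del S then S.T.symm x else x with hτ
  have hτm : Measurable τ := Measurable.ite (Del_meas S) S.T.symm.measurable measurable_id
  set F : Set (S.X × Y) := Prod.map τ id ⁻¹' E with hF
  have hFm : MeasurableSet F := (hτm.prodMap measurable_id) hE
  have h1 : ∀ x y, (x, y) ∈ E ↔ (W S x, R y) ∈ E := fun x y => by
    conv_lhs => rw [← hinv]
    rfl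
  have h2 : ∀ x, Prod.mk x ⁻¹' F =
      R^[if S.T x ∈ Del S then 0 else 1] ⁻¹' (Prod.mk (S.T x) ⁻¹' F) := fun x => by
    ext y
    by_cases a : S.T x ∈ Del S
    · have b : x ∉ Del S := fun h => Del_step S x h a
      simp [hF, hτ, a, b]
    · by_cases b : x ∈ Del S
      · have c : S.T.symm x ∉ Del S := fun h => Del_step S _ h (by simpa using b)
        have d : W S (S.T.symm x) = S.T x := (indE_two c (by simpa using b)).trans (by simp)
        simp [hF, hτ, a, b, h1 (S.T.symm x) y, d]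
      · have d : W S x = S.T x := indE_one b a
        simp [hF, hτ, a, b, h1 x y, d]
  have h3 : ∀ x n, Prod.mk x ⁻¹' F = R^[cnt S x n] ⁻¹' (Prod.mk (S.T^[n] x) ⁻¹' F) := fun x n => by
    induction n with
    | zero => rfl
    | succ n ih =>
      rw [ih, h2, ← preimage_comp, ← Function.iterate_add, cnt, cnt, Finset.sum_range_succ,
        add_comm, Function.iterate_succ_apply']
  have hs : ∀ x, MeasurableSet (Prod.mk x ⁻¹' F) := fun x => measurable_prodMk_left hFm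
  have h4 : ∀ᵐ x ∂S.μ, ν (Prod.mk x ⁻¹' F) = 0 ∨ ν (Prod.mk x ⁻¹' F)ᶜ = 0 := by
    have h5 := (lintegral_eq_zero_iff (measurable_measure_prodMk_left
      (((measurable_id.prodMap hR.measurable) hFm).symmDiff hFm))).1
      (theta_zero S hR.toMeasurePreserving hfull hFm h3)
    filter_upwards [h5] with x hx
    exact (hR.quasiErgodic.ae_empty_or_univ₀ (hs x).nullMeasurableSet
      (measure_symmDiff_eq_zero_iff.1 hx)).imp ae_eq_empty.1 ae_eq_univ.1
  have h5 := hT.ae_empty_or_univ (s := {x | ν (Prod.mk x ⁻¹' F) = 0})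
    (measurable_measure_prodMk_left hFm (measurableSet_singleton 0)) (Set.ext fun x => by
      simp only [mem_preimage, mem_ofPred_eq]
      rw [h2 x, (hR.toMeasurePreserving.iterate _).measure_preimage (hs _).nullMeasurableSet])
  have h6 : ∀ {p : S.X → Prop}, (∀ᵐ x ∂S.μ, p x) → ∀ᵐ x ∂m S, p x := fun h =>
    Measure.ae_smul_measure (ae_restrict_of_ae h) _
  have h7 : ∀ᵐ x ∂m S, Prod.mk x ⁻¹' F = Prod.mk x ⁻¹' E := by
    filter_upwards [res_ae (μ := S.μ) (Del_meas S)] with x hx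
    ext y
    simp [hF, hτ, hx]
  rw [eventuallyConst_set']
  rcases h5 with h | h
  · refine Or.inr (ae_eq_univ.2 ((Measure.measure_prod_null hE.compl).2 ?_))
    filter_upwards [h6 h4, h6 (eventuallyEq_set.1 h), h7] with x a b c
    rw [preimage_compl, ← c]
    exact a.resolve_left b.1
  · refine Or.inl (ae_eq_empty.2 ((Measure.measure_prod_null hE).2 ?_))
    filter_upwards [h6 (eventuallyEq_set.1 h), h7] with x b c
    rw [← c]
    exact b.2 trivial

end Vale.Agent.N109W
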