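import Vale.Agent.N109W.Defs
import Vale.Agent.N109W.WM
import Vale.Agent.N109W.Pred
import Vale.Agent.N109.Main

/-! Weakly mixing systems without smooth model. -/

noncomputable section

open MeasureTheory Set Filter
open scoped ENNReal NNReal ContDiff Manifold

namespace Vale.Agent.N109W

open Vale.Agent.P109 Vale.Agent.P109.KS Vale.Agent.P109.Smooth Vale.Agent.N109

variable {X Y : Type} [MeasurableSpace X] [MeasurableSpace Y] {μ : Measure X} {ν : Measure Y}
  {T : X → X} {R : Y → Y}

theorem entropy_eq : entropy μ T = ksEntropy μ T := by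
  have h : ∀ (k n : ℕ) (f : X → Fin k) (a : Fin n → Fin k),
      {x | ∀ i : Fin n, f (T^[i] x) = a i} = name T f n ⁻¹' {a} := fun k n f a =>
    Set.ext fun x => funext_iff.symm
  simp only [entropy, ksEntropy, shannon, h]

theorem Iso.factor (hR : MeasurePreserving R ν ν) (h : Iso μ T ν R) : Factor ν R μ T := by
  obtain ⟨X₀, Y₀, F, G, hX, hY, hT, -, -, hG, hI, hF, hGm, hm, hc⟩ := h
  have e := hGm.ae_eq_mk
  refine ⟨hGm.mk G, ⟨hGm.measurable_mk, ?_⟩, ?_⟩
  · rw [← Measure.map_congr e, ← hm, AEMeasurable.map_map_of_aemeasurable (hm ▸ hGm) hF,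
      Measure.map_congr (g := id), Measure.map_id]
    filter_upwards [show ∀ᵐ x ∂μ, x ∈ X₀ from hX] with x hx using hI.1 hx
  · filter_upwards [show ∀ᵐ y ∂ν, y ∈ Y₀ from hY, e, hR.quasiMeasurePreserving.ae_eq e]
      with y hy h1 h2
    rw [← h1, ← hI.1 (hT (hG hy)), hc _ (hG hy), hI.2 hy]
    exact h2.symm

theorem Model.factor {d : ℕ} {H : Type} [TopologicalSpace H]
    {J : ModelWithCorners ℝ (EuclideanSpace ℝ (Fin d)) H} (h : Model J μ T) : IsFactorOn J μ T := by
  obtain ⟨M, _, h2, hc, c, hm, _, hB, ν, S, hν, hv, hS, hI⟩ := h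
  have hH : SecondCountableTopology H := J.secondCountableTopology
  have hM : SecondCountableTopology M := ChartedSpace.secondCountable_of_sigmaCompact H M
  set A : Set (OpenPartialHomeomorph M H) :=
    {e | e ∈ IsManifold.maximalAtlas J ∞ M ∧ P109L.DensityIn J ν e} with hAdef
  have h : ∀ x : M, ∃ e ∈ A, x ∈ e.source := fun x => by
    obtain ⟨e, he, hx, f, h3, h4, h5⟩ := hv x
    refine ⟨e, ⟨he, f, h3, h4, Measure.ext fun C hC => ?_⟩, hx⟩
    have h6 : ContinuousOn (e.extend J) e.source := e.extend_source (I := J) ▸ e.continuousOn_extend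
    have h7 := e.open_source.measurableSet
    have h8 : MeasurableSet (e.extend J ⁻¹' C ∩ e.source) := by
      convert h7.subtype_image (h6.domRestrict.measurable hC) using 1
      ext z
      exact ⟨fun hz => ⟨⟨z, hz.2⟩, hz.1, rfl⟩, by rintro ⟨w, hw, rfl⟩; exact ⟨hw, w.2⟩⟩
    rw [Measure.map_apply_of_aemeasurable (h6.aemeasurable h7) hC, Measure.restrict_apply' h7,
      h5 _ inter_subset_right h8, withDensity_apply _ hC, Measure.restrict_restrict hC,
      image_preimage_inter, ← e.extend_source (I := J), PartialEquiv.image_source_eq_target]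
  have hA : A ⊆ IsManifold.maximalAtlas J ∞ M := fun e he => he.1
  have s1 := P109L.rechart_smooth h hA S.contMDiff
  have s2 := P109L.rechart_smooth h hA S.symm.contMDiff
  have hm' := P109L.rechart_manifold h hA
  refine ⟨M, inferInstance, P109L.rechart A h, inferInstance, ν, S, ?_, hB, hν, fun e he => he.2,
    ?_, hS, hI.factor hS⟩
  · let _ := P109L.rechart A h
    exact ⟨h2, hM, hc, hm'⟩
  · exact P109L.diffeo_of (c := P109L.rechart A h) S.toEquiv s1 s2

theorem HasModel.factor (h : HasModel μ T) : IsSmoothFactor μ T :=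
  h.imp (fun ⟨d, hd⟩ => ⟨d, hd.factor⟩) fun ⟨d, hd⟩ => ⟨d + 1, inferInstance, hd.factor⟩

/-- Transport to the unit interval. -/
theorem to_unit [StandardBorelSpace X] [IsProbabilityMeasure μ] (ha : ∀ x, μ {x} = 0)
    (T : X ≃ᵐ X) : ∃ (S : unitInterval ≃ᵐ unitInterval) (φ : X ≃ᵐ unitInterval),
      MeasurePreserving φ μ volume ∧ Function.Semiconj φ T S ∧ Function.Semiconj φ.symm S T := by
  obtain ⟨φ, hφ⟩ := P130.H454.exists_equiv μ (volume : Measure unitInterval) ha
    fun y => measure_singleton y
  exact ⟨(φ.symm.trans T).trans φ, φ, hφ, fun x => by simp, fun x => by simp⟩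

/-- The weakly mixing system of entropy zero on the unit interval. -/
theorem base : ∃ U : unitInterval ≃ᵐ unitInterval, MeasurePreserving U volume volume ∧
    ksEntropy volume U = 0 ∧ (∀ (Y : Type) [MeasurableSpace Y] (ν : Measure Y)
      [IsProbabilityMeasure ν] (R : Y → Y), Ergodic R ν → Ergodic (Prod.map U R) (volume.prod ν)) ∧
    ¬ IsSmoothFactor volume U := by
  obtain ⟨t, S, hS⟩ := exists_sys
  obtain ⟨U, φ, hφ, h1, h2⟩ := to_unit (μ := m S) (fun x =>
    Measure.smul_absolutelyContinuous (Measure.absolutelyContinuous_restrict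
      (S.measure_singleton x))) (W S)
  have hU : MeasurePreserving U volume volume := hφ.of_semiconj (W_mp S) h1 U.measurable
  refine ⟨U, hU, le_antisymm ((ks_factor hφ (W_mp S) U.measurable (.of_forall h1)).trans_eq
    (indE_ks (Del_ne S) (S.ksEntropy_eq_zero (F674.tendsto_log_card t)))) bot_le,
    fun Y _ ν _ R hR => ?_, fun h => hS (Factor.smooth ⟨_, hφ.symm φ, .of_forall h2⟩ h)⟩
  exact (hφ.prod (.id ν)).ergodic_of_ergodic_semiconj
    (W_ergodic S (H462.tower_full t) (S.ergodic (F674.indep t)) hR)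
    (U.measurable.prodMap hR.measurable) fun p => Prod.ext (h1 p.1) rfl

theorem bern_wm {A : Type} [MeasurableSpace A] (p : Measure A) [IsProbabilityMeasure p] :
    WeakMixing (bern p) (sh A) := by
  have h1 : MeasurePreserving (MeasurableEquiv.curry ℤ Bool A).symm
      (bern (Measure.infinitePi fun _ : Bool => p)) (Measure.infinitePi fun _ => p) :=
    ⟨MeasurableEquiv.measurable _, Measure.infinitePi_map_curry_symm fun _ _ => p⟩
  have h2 : MeasurePreserving (fun (w : ℤ × Bool → A) (q : Bool × ℤ) => w q.swap)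
      (Measure.infinitePi fun _ => p) (Measure.infinitePi fun _ => p) :=
    ⟨by fun_prop, Measure.map_infinitePi_infinitePi_of_inj Prod.swap_injective⟩
  have h3 : MeasurePreserving (MeasurableEquiv.curry Bool ℤ A) (Measure.infinitePi fun _ => p)
      (Measure.infinitePi fun _ : Bool => bern p) :=
    ⟨MeasurableEquiv.measurable _, Measure.infinitePi_map_curry fun _ _ => p⟩
  have h4 : MeasurePreserving (fun w : Bool → ℤ → A => (w false, w true))
      (Measure.infinitePi fun _ : Bool => bern p) ((bern p).prod (bern p)) :=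
    ⟨by fun_prop, Measure.infinitePi_map_eval_prod (P := fun _ : Bool => bern p) (by simp)⟩
  exact (h4.comp (h3.comp (h2.comp h1))).ergodic_of_ergodic_semiconj (sh_ergodic _)
    ((sh A).measurable.prodMap (sh A).measurable) fun _ => rfl

theorem WeakMixing.ergodic [IsProbabilityMeasure μ] (h : WeakMixing μ T) (hT : Measurable T) :
    Ergodic T μ :=
  measurePreserving_fst.ergodic_of_ergodic_semiconj h hT fun _ => rfl

theorem above (Y : Type) [MeasurableSpace Y] [StandardBorelSpace Y] (ν : Measure Y)
    [IsProbabilityMeasure ν] (R : Y ≃ᵐ Y) (hR : WeakMixing ν R) :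
    ∃ (T : unitInterval ≃ᵐ unitInterval) (π : unitInterval → Y), WeakMixing volume T ∧
      IsFactor π volume T ν R ∧ entropy volume T = entropy ν R ∧ ¬ HasModel volume T := by
  obtain ⟨U, hU, h0, h1, h2⟩ := base
  have hR' := (hR.ergodic R.measurable).toMeasurePreserving
  have hP := hU.prod hR'
  obtain ⟨T, φ, hφ, h3, h4⟩ := to_unit (μ := (volume : Measure unitInterval).prod ν) (fun z => by
    rw [← singleton_prod_singleton, Measure.prod_prod, measure_singleton, zero_mul])
    (U.prodCongr R)
  have hT : MeasurePreserving T volume volume := hφ.of_semiconj hP h3 T.measurable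
  have f1 : IsFactor (Prod.snd ∘ φ.symm) volume T ν R :=
    ⟨measurePreserving_snd.comp (hφ.symm φ), .of_forall fun x => congrArg Prod.snd (h4 x)⟩
  refine ⟨T, _, ?_, f1, ?_, fun h => h2 (Factor.smooth ⟨Prod.fst ∘ φ.symm,
    measurePreserving_fst.comp (hφ.symm φ), .of_forall fun x => congrArg Prod.fst (h4 x)⟩
    h.factor)⟩
  · have a1 := (measurePreserving_prodAssoc (volume : Measure unitInterval) ν ν).symm
    have a2 := (measurePreserving_prodAssoc (volume : Measure unitInterval) ν
      ((volume : Measure unitInterval).prod ν)).symm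
    have a3 := measurePreserving_prodAssoc ν (volume : Measure unitInterval) ν
    have a4 := (Measure.measurePreserving_swap (μ := (volume : Measure unitInterval))
      (ν := ν)).prod (.id ν)
    exact ((hφ.prod hφ).comp (a2.comp ((MeasurePreserving.id volume).prod
      (a3.comp (a4.comp a1))))).ergodic_of_ergodic_semiconj (h1 _ _ _ (h1 _ _ _ hR))
      (T.measurable.prodMap T.measurable) fun p =>
        Prod.ext (h3 (p.1, p.2.2.1)) (h3 (p.2.1, p.2.2.2))
  · rw [entropy_eq, entropy_eq]
    refine le_antisymm ((ks_factor hφ hP T.measurable (.of_forall h3)).trans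
      ((ks_joining U.measurable R.measurable hP measurePreserving_fst
        measurePreserving_snd).trans_eq ?_)) (ks_factor f1.1 hT R.measurable f1.2)
    rw [h0, zero_add]

theorem every (h : ℝ≥0) : ∃ T : unitInterval ≃ᵐ unitInterval, Ergodic T volume ∧
    WeakMixing volume T ∧ entropy volume T = h ∧ ¬ HasModel volume T := by
  obtain ⟨k, p, _, hp⟩ := exists_vector h.2
  obtain ⟨T, -, h1, -, h2, h3⟩ := above _ (bern p) (sh _) (bern_wm p)
  refine ⟨T, h1.ergodic T.measurable, h1, ?_, h3⟩
  rw [h2, entropy_eq, ks_bern, hp]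
  exact ENNReal.ofReal_coe_nnreal

theorem universal : ∃ U : unitInterval ≃ᵐ unitInterval, WeakMixing volume U ∧
    entropy volume U = 0 ∧ (∀ (Y : Type) [MeasurableSpace Y] (ν : Measure Y)
      [IsProbabilityMeasure ν] (R : Y → Y), Ergodic R ν → Ergodic (Prod.map U R) (volume.prod ν)) ∧
    ∀ (X : Type) [MeasurableSpace X] (μ : Measure X) (T : X → X) (π : X → unitInterval),
      IsFactor π μ T volume U → ¬ HasModel μ T := by
  obtain ⟨U, hU, h0, h1, h2⟩ := base
  refine ⟨U, h1 _ _ _ ?_, entropy_eq.trans h0, h1, fun X _ μ T π h h' =>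
    h2 (Factor.smooth ⟨π, h⟩ h'.factor)⟩
  refine measurePreserving_fst.ergodic_of_ergodic_semiconj (h1 Unit (Measure.dirac ()) id
    ⟨.id _, ⟨fun s _ _ => ?_⟩⟩) U.measurable fun _ => rfl
  exact EventuallyConst.of_subsingleton_left

end Vale.Agent.N109W
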