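import Vale.Agent.N109W.Del

/-! From an extension of the induced map back to an extension of the original system. -/

noncomputable section

open MeasureTheory Set Filter Topology
open scoped ENNReal

namespace Vale.Agent.N109W

open Vale.Agent.P109

variable {𝒯 : Tower} (S : 𝒯.toG.Sys) {M : Type} [MeasurableSpace M]

/-- An extension of the induced map. -/
structure Ext (ν : Measure M) (F : M → M) where
  π : M → S.X
  M₀ : Set M
  mp : MeasurePreserving F ν ν
  hπ : MeasurePreserving π ν (m S)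
  meas : MeasurableSet M₀
  null : ν M₀ᶜ = 0
  inv : ∀ z ∈ M₀, F z ∈ M₀
  fac : ∀ z ∈ M₀, π (F z) = W S (π z)

open Classical in
/-- The time of the `i`-th visit to the even phases. -/
def pos : ℕ → ℕ
  | 0 => 0
  | i + 1 => (if del (2 * i + 1) then 1 else 2) + pos i

theorem pos_le (i : ℕ) : pos i ≤ 2 * i := by
  induction i with
  | zero => exact le_rfl
  | succ i ih =>
    unfold pos
    split_ifs <;> omega

/-- Reading the name of the tower off the name of the extension. -/
def rd {A : Type} (n : ℕ) (u : Fin n → A × A) (k : Fin n) : A :=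
  if (k : ℕ) % 2 = 1 then (u ⟨pos (k / 2), (pos_le _).trans_lt (by omega)⟩).2
  else (u ⟨pos (k / 2), (pos_le _).trans_lt (by omega)⟩).1

namespace Ext

variable {S} {ν : Measure M} {F : M → M} (e : Ext S ν F)

/-- The points of even phase. -/
def E : Set M := e.π ⁻¹' {x | S.ph 1 x = 0}

theorem E_meas : MeasurableSet e.E := e.hπ.measurable (S.measurableSet_ph 1 0)

/-- The return map to the even phases. -/
def F₁ : M → M := ind F e.Eᶜ

/-- The tower of height two over the return map. -/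
def F' (p : M × Bool) : M × Bool := if p.2 = true then (e.F₁ p.1, false) else (p.1, true)

/-- The measure on the tower. -/
def ν' : Measure (M × Bool) :=
  S.μ (Del S)ᶜ • ((ν.restrict e.E).map (·, false) + (ν.restrict e.E).map (·, true))

/-- The factor map from the tower. -/
def π' (p : M × Bool) : S.X := if p.2 = true then S.T (e.π p.1) else e.π p.1

theorem F₁_mp : MeasurePreserving e.F₁ (ν.restrict e.E) (ν.restrict e.E) := by
  have h := ind_mp e.mp e.E_meas.compl (measure_eq_zero_iff_ae_notMem.2 ?_)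
  · rwa [compl_compl] at h
  filter_upwards [show ∀ᵐ z ∂ν, z ∈ e.M₀ from e.null,
    e.hπ.quasiMeasurePreserving.ae (res_ae (μ := S.μ) (Del_meas S))] with z a b c
  have h1 := ph_lt S 1 (e.π z)
  have h2 : S.ph 1 (e.π z) ≠ 0 := c.1
  have h3 : S.ph 1 (S.T (e.π z)) = 0 := by
    rw [ph_one]
    omega
  refine c.2 (show S.ph 1 (e.π (F z)) = 0 from ?_)
  rwa [e.fac z a, W, indE_one b (not_Del S h3)]

theorem bool_meas : MeasurableSet {p : M × Bool | p.2 = true} :=
  measurable_snd (measurableSet_singleton true)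

theorem F'_meas : Measurable e.F' :=
  Measurable.ite bool_meas ((e.F₁_mp.measurable.comp measurable_fst).prodMk measurable_const)
    (measurable_fst.prodMk measurable_const)

theorem π'_meas : Measurable e.π' :=
  Measurable.ite bool_meas (S.T.measurable.comp (e.hπ.measurable.comp measurable_fst))
    (e.hπ.measurable.comp measurable_fst)

theorem F'_mp : MeasurePreserving e.F' e.ν' e.ν' := by
  refine ⟨e.F'_meas, ?_⟩
  rw [ν', Measure.map_smul, Measure.map_add _ _ e.F'_meas,
    Measure.map_map e.F'_meas measurable_prodMk_right,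
    Measure.map_map e.F'_meas measurable_prodMk_right, add_comm]
  congr 2
  rw [show e.F' ∘ (fun x => (x, true)) = (fun x => (x, false)) ∘ e.F₁ from rfl,
    ← Measure.map_map measurable_prodMk_right e.F₁_mp.measurable, e.F₁_mp.map_eq]

theorem π'_mp : MeasurePreserving e.π' e.ν' S.μ := by
  have hZ := S.measurableSet_ph 1 0
  have h1 : (ν.restrict e.E).map e.π = (S.μ (Del S)ᶜ)⁻¹ • S.μ.restrict {x | S.ph 1 x = 0} := by
    rw [E, (e.hπ.restrict_preimage hZ).map_eq, m, res, Measure.restrict_smul,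
      Measure.restrict_restrict hZ, show {x | S.ph 1 x = 0} ∩ (Del S)ᶜ = {x | S.ph 1 x = 0} from
        inter_eq_left.2 fun x hx => not_Del S hx]
  have h2 : (S.μ.restrict {x | S.ph 1 x = 0}).map S.T = S.μ.restrict {x | S.ph 1 x = 0}ᶜ := by
    rw [← (S.mp.restrict_preimage hZ.compl).map_eq]
    congr 2
    ext x
    have := ph_lt S 1 x
    simp only [mem_preimage, mem_compl_iff, mem_ofPred_eq, ph_one]
    omega
  refine ⟨e.π'_meas, ?_⟩
  rw [ν', Measure.map_smul, Measure.map_add _ _ e.π'_meas,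
    Measure.map_map e.π'_meas measurable_prodMk_right,
    Measure.map_map e.π'_meas measurable_prodMk_right,
    show e.π' ∘ (fun x => (x, true)) = S.T ∘ e.π from rfl,
    show e.π' ∘ (fun x => (x, false)) = e.π from rfl,
    ← Measure.map_map S.T.measurable e.hπ.measurable, h1, Measure.map_smul, h2, ← smul_add,
    Measure.restrict_add_restrict_compl hZ, smul_smul,
    ENNReal.mul_inv_cancel (Del_ne S) (measure_ne_top _ _), one_smul]

theorem ν'_le (s : Set (M × Bool)) :
    e.ν' s ≤ ν ((·, false) ⁻¹' s ∩ e.E) + ν ((·, true) ⁻¹' s ∩ e.E) := by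
  rw [ν', Measure.smul_apply, Measure.add_apply, (measurableEmbedding_prod_mk_right _).map_apply,
    (measurableEmbedding_prod_mk_right _).map_apply, Measure.restrict_apply' e.E_meas,
    Measure.restrict_apply' e.E_meas]
  exact mul_le_of_le_one_left' prob_le_one

open Classical in
theorem step {z : M} (hz : z ∈ e.M₀) (h0 : z ∈ e.E) :
    e.F₁ z = F^[if S.T (e.π z) ∈ Del S then 1 else 2] z ∧ e.π (e.F₁ z) = S.T (S.T (e.π z)) ∧
      e.F₁ z ∈ e.M₀ ∧ e.F₁ z ∈ e.E := by
  have h1 : S.ph 1 (e.π z) = 0 := h0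
  have h2 : S.ph 1 (S.T (e.π z)) = 1 := by rw [ph_one, h1]
  have h3 : S.ph 1 (S.T (S.T (e.π z))) = 0 := by rw [ph_one, h2]
  by_cases h : S.T (e.π z) ∈ Del S
  · have h4 : e.π (F z) = S.T (S.T (e.π z)) := (e.fac z hz).trans (indE_two (not_Del S h1) h)
    have h5 : F z ∈ e.E := show S.ph 1 (e.π (F z)) = 0 from h4 ▸ h3
    rw [show e.F₁ z = F z from if_neg (not_not.2 h5), if_pos h]
    exact ⟨rfl, h4, e.inv z hz, h5⟩
  · have h4 : e.π (F z) = S.T (e.π z) := (e.fac z hz).trans (indE_one (not_Del S h1) h)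
    have h5 : F z ∉ e.E := fun h6 => by
      have h7 : S.ph 1 (e.π (F z)) = 0 := h6
      rw [h4] at h7
      omega
    have h6 : e.π (F (F z)) = S.T (S.T (e.π z)) := by
      rw [e.fac _ (e.inv z hz), h4]
      exact indE_one h (not_Del S h3)
    rw [show e.F₁ z = F (F z) from if_pos h5, if_neg h]
    exact ⟨rfl, h6, e.inv _ (e.inv z hz), show S.ph 1 (e.π (F (F z))) = 0 from h6 ▸ h3⟩

theorem iter {J : ℕ} {z : M} (hz : z ∈ e.M₀) (h0 : z ∈ e.E) (h : S.ph J (e.π z) = 0) (i : ℕ)
    (hi : 2 * i < 2 ^ J) : e.F₁^[i] z = F^[pos i] z ∧ e.π (e.F₁^[i] z) = S.T^[2 * i] (e.π z) ∧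
      e.F₁^[i] z ∈ e.M₀ ∧ e.F₁^[i] z ∈ e.E := by
  induction i with
  | zero => exact ⟨rfl, rfl, hz, h0⟩
  | succ i ih =>
    obtain ⟨h1, h2, h3, h4⟩ := ih (by omega)
    obtain ⟨h5, h6, h7, h8⟩ := e.step h3 h4
    have h9 : S.ph J (S.T^[2 * i + 1] (e.π z)) = 2 * i + 1 := by
      rw [ph_iter, h, zero_add, Nat.mod_eq_of_lt (by omega)]
    have h10 := mem_Del S (J := J) (x := S.T^[2 * i + 1] (e.π z)) (by omega)
    rw [h9, Function.iterate_succ_apply', ← h2] at h10
    rw [Function.iterate_succ_apply']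
    refine ⟨?_, ?_, h7, h8⟩
    · rw [h5, pos, Function.iterate_add_apply, ← h1]
      by_cases hd : del (2 * i + 1)
      · rw [if_pos hd, if_pos (h10.2 hd)]
      · rw [if_neg hd, if_neg (mt h10.1 hd)]
    · rw [h6, h2, mul_add, Function.iterate_add_apply, ← Function.iterate_succ_apply' S.T,
        ← Function.iterate_succ_apply' S.T, ← Function.iterate_add_apply]

theorem F'_iter (z : M) (k : ℕ) :
    e.F'^[k] (z, false) = (e.F₁^[k / 2] z, decide (k % 2 = 1)) := by
  induction k with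
  | zero => rfl
  | succ k ih =>
    rw [Function.iterate_succ_apply', ih]
    rcases Nat.mod_two_eq_zero_or_one k with h | h
    · rw [show (k + 1) / 2 = k / 2 by omega, show (k + 1) % 2 = 1 by omega, h]
      rfl
    · rw [show (k + 1) / 2 = k / 2 + 1 by omega, show (k + 1) % 2 = 0 by omega, h,
        Function.iterate_succ_apply']
      rfl

theorem fac' {p : M × Bool} (hz : p.1 ∈ e.M₀) (h0 : p.1 ∈ e.E) :
    e.π' (e.F' p) = S.T (e.π' p) ∧ (e.F' p).1 ∈ e.M₀ ∩ e.E := by
  obtain ⟨z, _ | _⟩ := p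
  · exact ⟨rfl, hz, h0⟩
  · exact ⟨(e.step hz h0).2.1, (e.step hz h0).2.2⟩

theorem disj {J t : ℕ} (hJ : 1 ≤ J) (ht : t % 2 = 0) {i i' : ℕ} (hi : i < i') (hi' : i' < 2 ^ J) :
    Disjoint (F^[i] ⁻¹' (e.M₀ ∩ e.π ⁻¹' {x | S.ph (J + 1) x = t}))
      (F^[i'] ⁻¹' (e.M₀ ∩ e.π ⁻¹' {x | S.ph (J + 1) x = t})) := by
  refine disjoint_left.2 fun z h1 h2 => ?_
  obtain ⟨k, rfl⟩ := Nat.exists_eq_add_of_lt hi
  rw [mem_preimage, add_assoc, add_comm i, Function.iterate_add_apply] at h2
  rw [mem_preimage] at h1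
  generalize F^[i] z = y at h1 h2
  have h3 : ∀ n, F^[n] y ∈ e.M₀ ∧ e.π (F^[n] y) = (W S)^[n] (e.π y) := fun n => by
    induction n with
    | zero => exact ⟨h1.1, rfl⟩
    | succ n ih =>
      rw [Function.iterate_succ_apply', Function.iterate_succ_apply', ← ih.2]
      exact ⟨e.inv _ ih.1, e.fac _ ih.1⟩
  have h4 : S.ph (J + 1) (e.π y) = t := h1.2
  obtain ⟨n, h5, h6, h7, -⟩ := indE_iter (hD := Del_meas S) (h := Del_step S) (x := e.π y)
    (not_Del S (by rw [← ph_mod S (show 1 ≤ J + 1 by omega), h4]; exact ht)) (k + 1)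
  have h8 : S.ph (J + 1) (e.π (F^[k + 1] y)) = t := h2.2
  rw [(h3 _).2, W, h7, ph_iter, h4] at h8
  have h9 := ph_lt S (J + 1) (e.π y)
  rw [h4] at h9
  rw [pow_succ] at h8 h9
  rcases lt_or_ge (t + n) (2 ^ J * 2) with h | h
  · rw [Nat.mod_eq_of_lt h] at h8
    omega
  · rw [Nat.mod_eq_sub_mod h, Nat.mod_eq_of_lt (by omega)] at h8
    omega

end Ext

end Vale.Agent.N109W
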